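import Vale.Agent.P128.Bdl.B7

/-! Integrals of negative powers of the distance to an Ahlfors regular set. -/

set_option linter.all false

open MeasureTheory Set Metric Filter
open scoped ENNReal NNReal Topology Real Pointwise

namespace Vale.Agent.P128.H452

open Vale.Agent.P128 Vale.Agent.P128.GM

theorem ker_ball' {β R : ℝ} (hR : 0 < R) :
    ∫ y in closedBall (0 : ℂ) R, ‖y‖ ^ (-β) =
      R ^ (2 - β) * ∫ y in closedBall (0 : ℂ) 1, ‖y‖ ^ (-β) := by
  have h := Measure.setIntegral_comp_smul_of_pos (volume : Measure ℂ)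
    (fun y : ℂ => ‖y‖ ^ (-β)) (closedBall (0 : ℂ) 1) hR
  rw [smul_unitClosedBall_of_nonneg hR.le, Complex.finrank_real_complex] at h
  have e : ∀ x : ℂ, ‖R • x‖ ^ (-β) = R ^ (-β) * ‖x‖ ^ (-β) := fun x => by
    rw [norm_smul, Real.norm_of_nonneg hR.le, Real.mul_rpow hR.le (norm_nonneg _)]
  simp only [e, integral_const_mul, smul_eq_mul] at h
  have e2 : R ^ (2 - β) = R ^ 2 * R ^ (-β) := by
    rw [sub_eq_add_neg, Real.rpow_add hR]
    norm_num
  rw [e2, mul_assoc, h, ← mul_assoc, mul_inv_cancel₀ (by positivity), one_mul]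

theorem ker_nonneg (β R : ℝ) : 0 ≤ ∫ y in closedBall (0 : ℂ) R, ‖y‖ ^ (-β) :=
  integral_nonneg fun y => Real.rpow_nonneg (norm_nonneg _) _

/-- lower integral of a kernel over a disk -/
theorem lker_le {β : ℝ} (hβ : β < 2) {R : ℝ} (y : ℂ) {B : Set ℂ} (hBm : MeasurableSet B)
    (hB : ∀ z ∈ B, z - y ∈ closedBall (0 : ℂ) R) :
    ∫⁻ z in B, ENNReal.ofReal (‖z - y‖ ^ (-β)) ≤
      ENNReal.ofReal (∫ w in closedBall (0 : ℂ) R, ‖w‖ ^ (-β)) := by
  have hint : IntegrableOn (fun w : ℂ => ‖w‖ ^ (-β)) (closedBall 0 R) :=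
    (locInt_rpow hβ).integrableOn_isCompact (isCompact_closedBall _ _)
  rw [ofReal_integral_eq_lintegral_ofReal hint
    (Eventually.of_forall fun w => Real.rpow_nonneg (norm_nonneg _) _),
    ← lintegral_indicator isClosed_closedBall.measurableSet]
  have hm : Measurable ((closedBall (0 : ℂ) R).indicator fun w => ENNReal.ofReal (‖w‖ ^ (-β))) :=
    ((measurable_norm.pow_const _).ennreal_ofReal).indicator isClosed_closedBall.measurableSet
  rw [← lintegral_sub_right_eq_self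
    ((closedBall (0 : ℂ) R).indicator fun w => ENNReal.ofReal (‖w‖ ^ (-β))) y,
    ← lintegral_indicator hBm]
  refine lintegral_mono fun z => ?_
  by_cases hz : z ∈ B
  · rw [indicator_of_mem hz, indicator_of_mem (hB z hz)]
  · rw [indicator_of_notMem hz]
    exact zero_le

/-- A negative power of the distance to `K` is bounded by a potential of the length measure. -/
theorem dist_le_pot {K : Set ℂ} {x₀ : ℂ} {R θ a : ℝ} (ha0 : 0 < a) (hθ : 0 < θ) (hx₀ : x₀ ∈ K)
    (hlow : ∀ y ∈ K, dist y x₀ < R → ∀ s, 0 < s → s < R →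
      ENNReal.ofReal (θ * s) ≤ μH[1] (K ∩ closedBall y s))
    (hKm : MeasurableSet K)
    {ρ : ℝ} (hρ : 0 < ρ) (hρR : 4 * ρ ≤ R) {z : ℂ} (hz : z ∈ ball x₀ ρ) :
    ENNReal.ofReal (infDist z K ^ (-a)) ≤ ENNReal.ofReal (3 ^ (1 + a) / θ) *
      ∫⁻ y in K ∩ closedBall x₀ (4 * ρ), ENNReal.ofReal (‖z - y‖ ^ (-(1 + a))) ∂μH[1] := by
  rcases (infDist_nonneg (x := z) (s := K)).eq_or_lt with h0 | h0
  · rw [← h0, Real.zero_rpow (by linarith), ENNReal.ofReal_zero]
    exact zero_le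
  set d := infDist z K with hd
  have hne : K.Nonempty := ⟨x₀, hx₀⟩
  obtain ⟨y, hyK, hy⟩ := (infDist_lt_iff hne).1 (show infDist z K < 2 * d by linarith)
  rw [mem_ball] at hz
  have hdρ : d < ρ := (infDist_le_dist_of_mem hx₀).trans_lt hz
  have hyx : dist y x₀ < 3 * ρ := by
    have := dist_triangle_left y x₀ z
    linarith
  have hH := hlow y hyK (by linarith) d h0 (by linarith)
  have hsub : K ∩ closedBall y d ⊆ K ∩ closedBall x₀ (4 * ρ) := by
    refine inter_subset_inter_right _ (closedBall_subset_closedBall' ?_)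
    linarith
  have hmeas : MeasurableSet (K ∩ closedBall y d) := hKm.inter isClosed_closedBall.measurableSet
  have hne2 : K ∩ closedBall y d ⊆ {w | z ≠ w} := by
    rintro w ⟨hw, -⟩ rfl
    have := infDist_zero_of_mem hw
    linarith
  have h1 : ENNReal.ofReal ((3 * d) ^ (-(1 + a))) * μH[1] (K ∩ closedBall y d) ≤
      ∫⁻ y in K ∩ closedBall x₀ (4 * ρ), ENNReal.ofReal (‖z - y‖ ^ (-(1 + a))) ∂μH[1] := by
    calc ENNReal.ofReal ((3 * d) ^ (-(1 + a))) * μH[1] (K ∩ closedBall y d)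
        = ∫⁻ y in K ∩ closedBall y d, ENNReal.ofReal ((3 * d) ^ (-(1 + a))) ∂μH[1] := by
          rw [setLIntegral_const]
      _ ≤ ∫⁻ y in K ∩ closedBall y d, ENNReal.ofReal (‖z - y‖ ^ (-(1 + a))) ∂μH[1] := by
          refine setLIntegral_mono' hmeas fun w hw => ?_
          refine ENNReal.ofReal_le_ofReal ?_
          have hzw : 0 < ‖z - w‖ := norm_pos_iff.2 (sub_ne_zero.2 (hne2 hw))
          refine Real.rpow_le_rpow_of_nonpos hzw ?_ (by linarith)
          rw [← dist_eq_norm]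
          have h2 := dist_triangle z y w
          have h3 : dist w y ≤ d := hw.2
          rw [dist_comm] at h3
          linarith
      _ ≤ _ := lintegral_mono_set hsub
  calc ENNReal.ofReal (d ^ (-a))
      = ENNReal.ofReal (3 ^ (1 + a) / θ) * (ENNReal.ofReal ((3 * d) ^ (-(1 + a))) *
          ENNReal.ofReal (θ * d)) := by
        rw [← ENNReal.ofReal_mul (by positivity), ← ENNReal.ofReal_mul (by positivity)]
        congr 1
        rw [Real.mul_rpow (by norm_num) h0.le]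
        have e1 : (3 : ℝ) ^ (-(1 + a)) = (3 ^ (1 + a))⁻¹ := Real.rpow_neg (by norm_num) _
        have e2 : d ^ (-a) = d ^ (-(1 + a)) * d := by
          rw [← Real.rpow_add_one h0.ne']
          congr 1
          ring
        rw [e1, e2]
        have : (3 : ℝ) ^ (1 + a) ≠ 0 := by positivity
        field_simp
    _ ≤ ENNReal.ofReal (3 ^ (1 + a) / θ) * (ENNReal.ofReal ((3 * d) ^ (-(1 + a))) *
          μH[1] (K ∩ closedBall y d)) := by gcongr
    _ ≤ _ := by gcongr

/-- Integral over disks of a negative power of the distance. -/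
theorem dist_int {K : Set ℂ} {x₀ : ℂ} {R θ C a : ℝ} (ha0 : 0 < a) (ha1 : a < 1) (hθ : 0 < θ)
    (hC : 0 ≤ C) (hx₀ : x₀ ∈ K) (hKm : MeasurableSet K)
    (hlow : ∀ y ∈ K, dist y x₀ < R → ∀ s, 0 < s → s < R →
      ENNReal.ofReal (θ * s) ≤ μH[1] (K ∩ closedBall y s))
    (hup : ∀ s, 0 < s → s < R → μH[1] (K ∩ closedBall x₀ s) ≤ ENNReal.ofReal (C * s)) :
    ∃ C' : ℝ, 0 ≤ C' ∧ ∀ ρ, 0 < ρ → 4 * ρ < R →
      ∫⁻ z in ball x₀ ρ, ENNReal.ofReal (infDist z K ^ (-a)) ≤
        ENNReal.ofReal (C' * ρ ^ (2 - a)) := by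
  set c := ∫ y in closedBall (0 : ℂ) 1, ‖y‖ ^ (-(1 + a)) with hc
  have hc0 : 0 ≤ c := ker_nonneg _ _
  refine ⟨3 ^ (1 + a) / θ * (C * 4) * (5 ^ (1 - a) * c), by positivity, ?_⟩
  intro ρ hρ hρR
  have h4 : (0 : ℝ) < 4 * ρ := by positivity
  set S : Set ℂ := K ∩ closedBall x₀ (4 * ρ) with hS
  have hSm : MeasurableSet S := hKm.inter isClosed_closedBall.measurableSet
  have hSf : μH[1] S < ⊤ := (hup _ h4 hρR).trans_lt ENNReal.ofReal_lt_top
  have hfin : IsFiniteMeasure ((μH[1] : Measure ℂ).restrict S) :=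
    ⟨by rw [Measure.restrict_apply_univ]; exact hSf⟩
  have hm : Measurable (fun p : ℂ × ℂ => ENNReal.ofReal (‖p.1 - p.2‖ ^ (-(1 + a)))) :=
    (((measurable_fst.sub measurable_snd).norm).pow_const _).ennreal_ofReal
  calc ∫⁻ z in ball x₀ ρ, ENNReal.ofReal (infDist z K ^ (-a))
      ≤ ∫⁻ z in ball x₀ ρ, ENNReal.ofReal (3 ^ (1 + a) / θ) *
          ∫⁻ y in S, ENNReal.ofReal (‖z - y‖ ^ (-(1 + a))) ∂μH[1] :=
        setLIntegral_mono' measurableSet_ball fun z hz =>
          dist_le_pot ha0 hθ hx₀ hlow hKm hρ hρR.le hz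
    _ = ENNReal.ofReal (3 ^ (1 + a) / θ) * ∫⁻ z in ball x₀ ρ,
          ∫⁻ y in S, ENNReal.ofReal (‖z - y‖ ^ (-(1 + a))) ∂μH[1] := by
        rw [lintegral_const_mul']
        exact ENNReal.ofReal_ne_top
    _ = ENNReal.ofReal (3 ^ (1 + a) / θ) * ∫⁻ y in S, ∫⁻ z in ball x₀ ρ,
          ENNReal.ofReal (‖z - y‖ ^ (-(1 + a))) ∂volume ∂μH[1] := by
        rw [lintegral_lintegral_swap (f := fun z y => ENNReal.ofReal (‖z - y‖ ^ (-(1 + a))))
          hm.aemeasurable]
    _ ≤ ENNReal.ofReal (3 ^ (1 + a) / θ) * ∫⁻ y in S,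
          ENNReal.ofReal (∫ w in closedBall (0 : ℂ) (5 * ρ), ‖w‖ ^ (-(1 + a))) ∂μH[1] := by
        refine mul_le_mul' le_rfl ?_
        refine setLIntegral_mono' hSm fun y hy => ?_
        refine lker_le (by linarith) y measurableSet_ball fun z hz => ?_
        rw [mem_closedBall, dist_zero_right, ← dist_eq_norm]
        have h1 : dist y x₀ ≤ 4 * ρ := hy.2
        have h2 := dist_triangle_right z y x₀
        rw [mem_ball] at hz
        linarith
    _ = ENNReal.ofReal (3 ^ (1 + a) / θ) *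
          (ENNReal.ofReal ((5 * ρ) ^ (1 - a) * c) * μH[1] S) := by
        rw [setLIntegral_const, ker_ball' (by positivity),
          show (2 : ℝ) - (1 + a) = 1 - a by ring]
    _ ≤ ENNReal.ofReal (3 ^ (1 + a) / θ) *
          (ENNReal.ofReal ((5 * ρ) ^ (1 - a) * c) * ENNReal.ofReal (C * (4 * ρ))) := by
        gcongr
        exact hup _ h4 hρR
    _ = _ := by
        rw [← ENNReal.ofReal_mul (by positivity), ← ENNReal.ofReal_mul (by positivity)]
        congr 1
        rw [Real.mul_rpow (by norm_num) hρ.le]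
        have e : ρ ^ (2 - a) = ρ ^ (1 - a) * ρ := by
          rw [← Real.rpow_add_one hρ.ne']
          congr 1
          ring
        rw [e]
        ring

/-- The weighted integral is finite. -/
theorem dist_int_weight {K : Set ℂ} {x₀ : ℂ} {ρ₀ C' a β : ℝ} (hβ : 0 ≤ β) (hab : a + β < 2)
    (hρ₀ : 0 < ρ₀) (hC' : 0 ≤ C')
    (h : ∀ ρ, 0 < ρ → ρ ≤ ρ₀ → ∫⁻ z in ball x₀ ρ, ENNReal.ofReal (infDist z K ^ (-a)) ≤
        ENNReal.ofReal (C' * ρ ^ (2 - a))) :
    ∫⁻ z in ball x₀ ρ₀, ENNReal.ofReal (dist z x₀ ^ (-β) * infDist z K ^ (-a)) < ⊤ := by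
  set q : ℝ := (1 / 2 : ℝ) ^ (2 - a - β) with hq
  have hq0 : 0 < q := by positivity
  have hq1 : q < 1 := Real.rpow_lt_one (by norm_num) (by norm_num) (by linarith)
  set r : ℕ → ℝ := fun k => ρ₀ * (1 / 2) ^ k with hr
  have hr0 : ∀ k, 0 < r k := fun k => by rw [hr]; positivity
  have hrle : ∀ k, r k ≤ ρ₀ := fun k => by
    simp only [hr]
    have : ((1 : ℝ) / 2) ^ k ≤ 1 := pow_le_one₀ (by norm_num) (by norm_num)
    nlinarith
  set A : ℕ → Set ℂ := fun k => {z | r (k + 1) ≤ dist z x₀ ∧ dist z x₀ < r k} with hA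
  have hAm : ∀ k, MeasurableSet (A k) := fun k =>
    (measurableSet_le measurable_const (measurable_id.dist measurable_const)).inter
      (measurableSet_lt (measurable_id.dist measurable_const) measurable_const)
  have hcov : ball x₀ ρ₀ ⊆ {x₀} ∪ ⋃ k, A k := by
    intro z hz
    by_cases hzx : z = x₀
    · exact Or.inl hzx
    refine Or.inr ?_
    have hpos : 0 < dist z x₀ := dist_pos.2 hzx
    have hlim : Tendsto r atTop (𝓝 0) := by
      have := (tendsto_pow_atTop_nhds_zero_of_lt_one (r := (1 / 2 : ℝ)) (by norm_num)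
        (by norm_num)).const_mul ρ₀
      rw [mul_zero] at this
      exact this
    obtain ⟨N, hN⟩ := (hlim.eventually (gt_mem_nhds hpos)).exists
    have hex : ∃ k, r (k + 1) ≤ dist z x₀ := by
      refine ⟨N, le_trans ?_ hN.le⟩
      simp only [hr, pow_succ]
      have : (0 : ℝ) < ρ₀ * (1 / 2) ^ N := by positivity
      nlinarith
    classical
    refine mem_iUnion.2 ⟨Nat.find hex, Nat.find_spec hex, ?_⟩
    rcases Nat.eq_zero_or_pos (Nat.find hex) with h0 | h0
    · rw [h0]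
      simpa [hr] using hz
    · obtain ⟨m, hm⟩ : ∃ m, Nat.find hex = m + 1 := ⟨Nat.find hex - 1, by omega⟩
      have := Nat.find_min hex (m := m) (by omega)
      rw [hm]
      exact not_le.1 this
  have hk : ∀ k, ∫⁻ z in A k, ENNReal.ofReal (dist z x₀ ^ (-β) * infDist z K ^ (-a)) ≤
      ENNReal.ofReal (2 ^ β * C' * ρ₀ ^ (2 - a - β) * q ^ k) := by
    intro k
    calc ∫⁻ z in A k, ENNReal.ofReal (dist z x₀ ^ (-β) * infDist z K ^ (-a))
        ≤ ∫⁻ z in A k, ENNReal.ofReal (r (k + 1) ^ (-β)) * ENNReal.ofReal (infDist z K ^ (-a)) := by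
          refine setLIntegral_mono' (hAm k) fun z hz => ?_
          rw [← ENNReal.ofReal_mul (Real.rpow_nonneg (hr0 _).le _)]
          refine ENNReal.ofReal_le_ofReal ?_
          refine mul_le_mul_of_nonneg_right ?_ (Real.rpow_nonneg infDist_nonneg _)
          exact Real.rpow_le_rpow_of_nonpos (hr0 _) hz.1 (by linarith)
      _ = ENNReal.ofReal (r (k + 1) ^ (-β)) * ∫⁻ z in A k, ENNReal.ofReal (infDist z K ^ (-a)) :=
          lintegral_const_mul' _ _ ENNReal.ofReal_ne_top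
      _ ≤ ENNReal.ofReal (r (k + 1) ^ (-β)) * ENNReal.ofReal (C' * r k ^ (2 - a)) := by
          gcongr
          exact (lintegral_mono_set fun z hz => hz.2).trans (h _ (hr0 k) (hrle k))
      _ = _ := by
          rw [← ENNReal.ofReal_mul (Real.rpow_nonneg (hr0 _).le _)]
          congr 1
          have e1 : r (k + 1) = r k * (1 / 2) := by simp only [hr, pow_succ]; ring
          have e2 : (r k * (1 / 2)) ^ (-β) = r k ^ (-β) * 2 ^ β := by
            rw [Real.mul_rpow (hr0 k).le (by norm_num), one_div, Real.inv_rpow (by norm_num),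
              Real.rpow_neg (by norm_num : (0 : ℝ) ≤ 2), inv_inv]
          have e3 : r k ^ (-β) * r k ^ (2 - a) = r k ^ (2 - a - β) := by
            rw [← Real.rpow_add (hr0 k)]
            congr 1
            ring
          have e4 : r k ^ (2 - a - β) = ρ₀ ^ (2 - a - β) * q ^ k := by
            simp only [hr]
            rw [Real.mul_rpow hρ₀.le (by positivity), hq, ← Real.rpow_natCast,
              ← Real.rpow_natCast, ← Real.rpow_mul (by norm_num), ← Real.rpow_mul (by norm_num),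
              mul_comm (k : ℝ)]
          rw [e1, e2]
          calc r k ^ (-β) * 2 ^ β * (C' * r k ^ (2 - a))
              = 2 ^ β * C' * (r k ^ (-β) * r k ^ (2 - a)) := by ring
            _ = _ := by rw [e3, e4]; ring
  have hsum : ∑' k, ENNReal.ofReal (2 ^ β * C' * ρ₀ ^ (2 - a - β) * q ^ k) < ⊤ := by
    rw [← ENNReal.ofReal_tsum_of_nonneg (fun k => by positivity)
      ((summable_geometric_of_lt_one hq0.le hq1).mul_left _)]
    exact ENNReal.ofReal_lt_top
  calc ∫⁻ z in ball x₀ ρ₀, ENNReal.ofReal (dist z x₀ ^ (-β) * infDist z K ^ (-a))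
      ≤ ∫⁻ z in {x₀} ∪ ⋃ k, A k, ENNReal.ofReal (dist z x₀ ^ (-β) * infDist z K ^ (-a)) :=
        lintegral_mono_set hcov
    _ ≤ (∫⁻ z in {x₀}, ENNReal.ofReal (dist z x₀ ^ (-β) * infDist z K ^ (-a))) +
          ∫⁻ z in ⋃ k, A k, ENNReal.ofReal (dist z x₀ ^ (-β) * infDist z K ^ (-a)) :=
        lintegral_union_le _ _ _
    _ ≤ 0 + ∑' k, ∫⁻ z in A k, ENNReal.ofReal (dist z x₀ ^ (-β) * infDist z K ^ (-a)) := by
        gcongr
        · rw [Measure.restrict_singleton]
          simp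
        · exact lintegral_iUnion_le _ _
    _ ≤ ∑' k, ENNReal.ofReal (2 ^ β * C' * ρ₀ ^ (2 - a - β) * q ^ k) := by
        rw [zero_add]
        exact ENNReal.tsum_le_tsum hk
    _ < ⊤ := hsum

end Vale.Agent.P128.H452
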