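import Vale.Agent.P128.Bdl.B20

/-! Interior estimate for the gradient of a minimizer off its singular set. -/

set_option linter.all false

open MeasureTheory Set Metric Filter InnerProductSpace
open scoped ENNReal NNReal ContDiff Topology Real

namespace Vale.Agent.P128.H452

open Vale.Agent.P128 Vale.Agent.P128.GM Vale.Agent.P128.Q1

/-- sub-mean value inequality on circles -/
theorem circ_le {f : ℂ → ℂ} {x : ℂ} {R s : ℝ} (hs : 0 < s) (hsR : s < R)
    (hf : DifferentiableOn ℂ f (ball x R)) :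
    2 * π * ‖f x‖ ^ 2 ≤ ∫ θ in ang, ‖f (circleMap x s θ)‖ ^ 2 := by
  have hpi := Real.pi_pos
  have hcb : closedBall x s ⊆ ball x R := closedBall_subset_ball hsR
  have hf2 : DifferentiableOn ℂ (fun z => f z ^ 2) (ball x R) := hf.pow 2
  have h1 : Real.circleAverage (fun z => f z ^ 2) x s = f x ^ 2 := by
    refine circleAverage_of_differentiable_on_off_countable countable_empty ?_ ?_
    · rw [abs_of_pos hs]
      exact hf2.continuousOn.mono hcb
    · intro z hz
      rw [abs_of_pos hs] at hz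
      exact hf2.differentiableAt (isOpen_ball.mem_nhds (hcb (ball_subset_closedBall hz.1)))
  have h2 : (∫ θ in (0 : ℝ)..2 * π, f (circleMap x s θ) ^ 2) = (2 * π : ℝ) • f x ^ 2 := by
    rw [← h1, Real.circleAverage_def, smul_smul, mul_inv_cancel₀ (by positivity), one_smul]
  have h3 : ‖∫ θ in (0 : ℝ)..2 * π, f (circleMap x s θ) ^ 2‖ ≤
      ∫ θ in (0 : ℝ)..2 * π, ‖f (circleMap x s θ) ^ 2‖ :=
    intervalIntegral.norm_integral_le_integral_norm (by positivity)
  have hper : Function.Periodic (fun θ => ‖f (circleMap x s θ)‖ ^ 2) (2 * π) := fun θ => by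
    simp [periodic_circleMap x s θ]
  have h4 := hper.intervalIntegral_add_eq 0 (-π)
  rw [zero_add, show -π + 2 * π = π by ring] at h4
  simp only [norm_pow] at h3
  rw [h4, h2, norm_smul, norm_pow, Real.norm_of_nonneg (by positivity),
    intervalIntegral.integral_of_le (by linarith), integral_Ioc_eq_integral_Ioo] at h3
  exact h3

/-- sub-mean value inequality on disks -/
theorem area_le {f : ℂ → ℂ} {x : ℂ} {R s : ℝ} (hs : 0 < s) (hsR : s < R)
    (hf : DifferentiableOn ℂ f (ball x R)) :
    π * s ^ 2 * ‖f x‖ ^ 2 ≤ ∫ z in ball x s, ‖f z‖ ^ 2 := by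
  have hpi := Real.pi_pos
  have hcb : closedBall x s ⊆ ball x R := closedBall_subset_ball hsR
  have hc : ContinuousOn (fun z => ‖f z‖ ^ 2) (ball x R) := hf.continuousOn.norm.pow 2
  have h0 : IntegrableOn (fun z => ‖f z‖ ^ 2) (ball x s) :=
    ((hc.mono hcb).integrableOn_compact (isCompact_closedBall x s)).mono_set
      ball_subset_closedBall
  have hFm : Measurable ((ball x s).indicator fun z => ‖f z‖ ^ 2) := by
    classical
    have e : (ball x s).indicator (fun z => ‖f z‖ ^ 2) =
        (ball x s).piecewise (fun z => ‖f z‖ ^ 2) (fun _ => 0) := by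
      funext z
      by_cases hz : z ∈ ball x s
      · rw [indicator_of_mem hz, piecewise_eq_of_mem _ _ _ hz]
      · rw [indicator_of_notMem hz, piecewise_eq_of_notMem _ _ _ hz]
    rw [e]
    exact ContinuousOn.measurable_piecewise (hc.mono (ball_subset_ball hsR.le))
      continuousOn_const measurableSet_ball
  have hF : Integrable ((ball x s).indicator fun z => ‖f z‖ ^ 2) :=
    (integrable_indicator_iff measurableSet_ball).mpr h0
  have h3 := integral_polar x hFm hF
  rw [integral_indicator measurableSet_ball] at h3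
  have hd : ∀ {t : ℝ} (ht : 0 < t) (θ : ℝ), dist (circleMap x t θ) x = t := fun {t} ht θ => by
    rw [dist_eq_norm, circleMap_sub_center, norm_circleMap_zero, abs_of_pos ht]
  have h4 : ∫ t in Ioi (0 : ℝ), t * ∫ θ in ang, ((ball x s).indicator fun z => ‖f z‖ ^ 2)
      (circleMap x t θ) = ∫ t in Ioi (0 : ℝ), (Ioo 0 s).indicator
      (fun t => t * ∫ θ in ang, ‖f (circleMap x t θ)‖ ^ 2) t := by
    refine setIntegral_congr_fun measurableSet_Ioi fun t ht => ?_
    have ht0 : (0 : ℝ) < t := ht
    by_cases h : t < s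
    · have h5 : ∀ θ, ((ball x s).indicator fun z => ‖f z‖ ^ 2) (circleMap x t θ) =
          ‖f (circleMap x t θ)‖ ^ 2 := fun θ =>
        indicator_of_mem (by rw [mem_ball, hd ht0]; exact h) _
      simp only [h5, indicator_of_mem (show t ∈ Ioo 0 s from ⟨ht0, h⟩)]
    · have h5 : ∀ θ, ((ball x s).indicator fun z => ‖f z‖ ^ 2) (circleMap x t θ) = 0 :=
        fun θ => indicator_of_notMem (by rw [mem_ball, hd ht0]; exact h) _
      simp only [h5, indicator_of_notMem (show t ∉ Ioo 0 s from fun h' => h h'.2)]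
      simp
  rw [h4, setIntegral_indicator measurableSet_Ioo,
    inter_eq_right.2 (show Ioo 0 s ⊆ Ioi (0 : ℝ) from fun s hs => hs.1)] at h3
  have hint : IntegrableOn (fun t => t * ∫ θ in ang, ‖f (circleMap x t θ)‖ ^ 2) (Ioo 0 s) := by
    have hp := integrable_polar x hFm hF
    have h6 := hp.integral_prod_left
    have h7 : IntegrableOn (fun t => ∫ θ in ang, t * ((ball x s).indicator fun z => ‖f z‖ ^ 2)
        (circleMap x t θ)) (Ioi 0) := h6
    refine (h7.mono_set (fun t ht => ht.1 : Ioo 0 s ⊆ Ioi 0)).congr_fun (fun t ht => ?_)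
      measurableSet_Ioo
    simp only [integral_const_mul]
    congr 1
    refine integral_congr_ae (Eventually.of_forall fun θ => ?_)
    exact indicator_of_mem (by rw [mem_ball, hd ht.1]; exact ht.2) _
  have h5 : ∫ t in Ioo 0 s, t * (2 * π * ‖f x‖ ^ 2) ≤
      ∫ t in Ioo 0 s, t * ∫ θ in ang, ‖f (circleMap x t θ)‖ ^ 2 := by
    refine setIntegral_mono_on ?_ hint measurableSet_Ioo ?_
    · exact ((continuous_id.mul continuous_const).continuousOn.integrableOn_compact
        isCompact_Icc).mono_set Ioo_subset_Icc_self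
    · intro t ht
      exact mul_le_mul_of_nonneg_left (circ_le ht.1 (ht.2.trans hsR) hf) ht.1.le
  have h6 : ∫ t in Ioo 0 s, t * (2 * π * ‖f x‖ ^ 2) = π * s ^ 2 * ‖f x‖ ^ 2 := by
    rw [← integral_Ioc_eq_integral_Ioo, ← intervalIntegral.integral_of_le hs.le,
      intervalIntegral.integral_mul_const, integral_id]
    ring
  linarith

/-- the integral of the kernel `1 / |y|` over disks -/
theorem ker_ball {R : ℝ} (hR : 0 < R) :
    ∫ y in closedBall (0 : ℂ) R, ‖y‖ ^ (-(1 : ℝ)) =
      R * ∫ y in closedBall (0 : ℂ) 1, ‖y‖ ^ (-(1 : ℝ)) := by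
  have h := Measure.setIntegral_comp_smul_of_pos (volume : Measure ℂ)
    (fun y : ℂ => ‖y‖ ^ (-(1 : ℝ))) (closedBall (0 : ℂ) 1) hR
  rw [smul_unitClosedBall_of_nonneg hR.le, Complex.finrank_real_complex] at h
  have e : ∀ x : ℂ, ‖R • x‖ ^ (-(1 : ℝ)) = R⁻¹ * ‖x‖ ^ (-(1 : ℝ)) := fun x => by
    rw [norm_smul, Real.norm_of_nonneg hR.le, Real.mul_rpow hR.le (norm_nonneg _),
      Real.rpow_neg_one]
  simp only [e, integral_const_mul, smul_eq_mul] at h
  field_simp at h
  linarith

/-- bound for the gradient of the potential of a bounded source -/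
theorem pot_grad_le : ∃ C : ℝ, 0 ≤ C ∧ ∀ {f : ℂ → ℝ} {A ρ : ℝ} {c : ℂ}, 0 < ρ → Src f A c ρ →
    ∀ z ∈ ball c ρ, ‖∫ w, f w • Dk 0 (z - w)‖ ≤ C * A * ρ := by
  refine ⟨2 * (2 * π)⁻¹ * ∫ y in closedBall (0 : ℂ) 1, ‖y‖ ^ (-(1 : ℝ)), ?_, ?_⟩
  · have : 0 ≤ ∫ y in closedBall (0 : ℂ) 1, ‖y‖ ^ (-(1 : ℝ)) :=
      integral_nonneg fun y => by positivity
    positivity
  intro f A ρ c hρ h z hz
  have hI : Integrable ((closedBall (0 : ℂ) (2 * ρ)).indicator
      fun y => (2 * π)⁻¹ * ‖y‖ ^ (-(1 : ℝ))) := by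
    rw [integrable_indicator_iff measurableSet_closedBall]
    exact ((locInt_rpow (α := 1) (by norm_num)).integrableOn_isCompact
      (isCompact_closedBall _ _)).const_mul _
  calc ‖∫ w, f w • Dk 0 (z - w)‖
      ≤ ∫ w, A * (closedBall (0 : ℂ) (2 * ρ)).indicator
          (fun y => (2 * π)⁻¹ * ‖y‖ ^ (-(1 : ℝ))) (z - w) := by
        refine norm_integral_le_of_norm_le ((hI.comp_sub_left z).const_mul A)
          (Eventually.of_forall fun w => ?_)
        rw [norm_smul, Real.norm_eq_abs]
        by_cases hw : w ∈ ball c ρ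
        · have h1 : z - w ∈ closedBall (0 : ℂ) (2 * ρ) := by
            rw [mem_closedBall, dist_zero_right]
            rw [mem_ball, dist_eq_norm] at hw hz
            have e : z - w = (z - c) - (w - c) := by ring
            rw [e]
            exact (norm_sub_le _ _).trans (by linarith)
          rw [indicator_of_mem h1]
          exact mul_le_mul (h.bound w) (norm_Dk_le _ _) (norm_nonneg _) h.A_nonneg
        · rw [h.zero w hw, abs_zero, zero_mul]
          exact mul_nonneg h.A_nonneg (indicator_nonneg (fun _ _ => by positivity) _)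
    _ = A * ∫ y in closedBall (0 : ℂ) (2 * ρ), (2 * π)⁻¹ * ‖y‖ ^ (-(1 : ℝ)) := by
        rw [integral_const_mul, integral_sub_left_eq_self
          ((closedBall (0 : ℂ) (2 * ρ)).indicator fun y => (2 * π)⁻¹ * ‖y‖ ^ (-(1 : ℝ))) volume z,
          integral_indicator measurableSet_closedBall]
    _ = _ := by
        rw [integral_const_mul, ker_ball (by positivity)]
        ring

/-- the complex derivative of a harmonic function -/
noncomputable def cd (h : ℂ → ℝ) (z : ℂ) : ℂ := fderiv ℝ h z 1 - Complex.I * fderiv ℝ h z Complex.I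

theorem norm_cd (h : ℂ → ℝ) (z : ℂ) : ‖cd h z‖ = ‖grad h z‖ := by
  have e : cd h z = (starRingEnd ℂ) (grad h z) := by
    apply Complex.ext
    · simp [cd, grad]
    · simp [cd, grad]
  rw [e]
  exact RCLike.norm_conj _

theorem grad_add {a b : ℂ → ℝ} {z : ℂ} (ha : DifferentiableAt ℝ a z) (hb : DifferentiableAt ℝ b z) :
    grad (fun w => a w + b w) z = grad a z + grad b z := by
  have h1 : fderiv ℝ (fun w => a w + b w) z = fderiv ℝ a z + fderiv ℝ b z :=
    (ha.hasFDerivAt.add hb.hasFDerivAt).fderiv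
  apply Complex.ext
  · simp [grad, h1]
  · simp [grad, h1]

/-- Interior gradient estimate. -/
theorem int_est : ∃ C : ℝ, 0 ≤ C ∧ ∀ {Ω K : Set ℂ} {g u : ℂ → ℝ} {G : ℂ → ℂ} {M : ℝ},
    Nice Ω g u G K M → ContDiffOn ℝ 1 u (Ω \ K) → (∀ z ∈ Ω \ K, G z = grad u z) →
    ∀ {z : ℂ} {d : ℝ}, 0 < d → ball z d ⊆ Ω \ K → (∀ w ∈ ball z d, |u w| ≤ M) →
      ‖G z‖ ≤ C * (d⁻¹ * √(En G z d) + M * d) := by
  obtain ⟨C, hC, hpot⟩ := pot_grad_le
  refine ⟨4 + 3 * C, by positivity, ?_⟩
  intro Ω K g u G M N hu hG z d hd hz hb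
  have hpi := Real.pi_pos
  have hM := N.M_nonneg
  set r : ℝ := d / 2 with hr
  have hr0 : 0 < r := by positivity
  have hrd : r < d := by linarith
  have hcb : closedBall z r ⊆ Ω \ K := (closedBall_subset_ball hrd).trans hz
  have hbs : ball z r ⊆ Ω \ K := ball_subset_closedBall.trans hcb
  have hU : IsOpen (Ω \ K) := N.min.1.isOpen_diff N.isOpen
  set f : ℂ → ℝ := (ball z r).indicator (fun w => u w - g w) with hf
  have hsrc : Src f (2 * M) z r := by
    refine ⟨(N.um.sub N.gm).indicator measurableSet_ball, fun w => ?_,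
      fun w hw => indicator_of_notMem hw _⟩
    by_cases hw : w ∈ ball z r
    · rw [hf, indicator_of_mem hw]
      have h5 := hb w (ball_subset_ball hrd.le hw)
      have h6 := N.gb w
      exact (abs_sub _ _).trans (by linarith)
    · rw [hf, indicator_of_notMem hw, abs_zero]
      positivity
  have hli : LocallyIntegrableOn (fun w => u w - pot f w) (ball z r) := by
    have h5 : LocallyIntegrable fun w => u w - pot f w :=
      (N.u_memLp.locallyIntegrable (by norm_num)).sub hsrc.contDiff_pot.continuous.locallyIntegrable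
    exact h5.locallyIntegrableOn _
  obtain ⟨h, hh, hae⟩ := clWeyl isOpen_ball hli fun φ k1 k2 k3 => by
    have e1 := weak_eq N hcb k1 k2 k3
    have e2 := hsrc.weak_lap k1 k2
    have i1 : Integrable fun w => u w * lap φ w :=
      integrable_mul_cc (N.u_memLp.locallyIntegrable (by norm_num)) (cont_lap k1) (supp_lap k2)
    have i2 : Integrable fun w => pot f w * lap φ w :=
      integrable_mul_cc hsrc.contDiff_pot.continuous.locallyIntegrable (cont_lap k1) (supp_lap k2)
    have e3 : ∫ w, (u w - pot f w) * lap φ w = (∫ w, u w * lap φ w) - ∫ w, pot f w * lap φ w := by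
      rw [← integral_sub i1 i2]
      refine integral_congr_ae (Eventually.of_forall fun w => ?_)
      simp only
      ring
    have e4 : ∫ w, (u w - g w) * φ w = ∫ w, f w * φ w := by
      refine integral_congr_ae (Eventually.of_forall fun w => ?_)
      simp only
      by_cases hzb : w ∈ ball z r
      · rw [hf, indicator_of_mem hzb]
      · rw [image_eq_zero_of_notMem_tsupport (f := φ) fun hc => hzb (k3 hc), mul_zero, mul_zero]
    rw [e3, e1, e2, e4, sub_self]
  have hhs : ContDiffOn ℝ ∞ h (ball z r) := HarmonicOnNhd.smooth hh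
  have heq : EqOn (fun w => u w - pot f w) h (ball z r) := by
    refine Measure.eqOn_open_of_ae_eq (μ := volume) hae isOpen_ball ?_ hhs.continuousOn
    exact (hu.continuousOn.mono hbs).sub hsrc.contDiff_pot.continuous.continuousOn
  have hgrad : ∀ w ∈ ball z r, G w = grad h w + grad (pot f) w := by
    intro w hw
    rw [hG w (hbs hw)]
    have hd1 : DifferentiableAt ℝ h w :=
      (hhs.contDiffAt (isOpen_ball.mem_nhds hw)).differentiableAt (by simp)
    have hd2 : DifferentiableAt ℝ (pot f) w := (hsrc.hasFDerivAt_pot w).differentiableAt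
    rw [← grad_add hd1 hd2]
    have he : u =ᶠ[𝓝 w] fun w => h w + pot f w := by
      filter_upwards [isOpen_ball.mem_nhds hw] with y hy
      have := heq hy
      simp only at this
      rw [← this]; ring
    unfold grad
    rw [he.fderiv_eq]
  have hpg : ∀ w ∈ ball z r, ‖grad (pot f) w‖ ≤ C * (2 * M) * r := by
    intro w hw
    refine norm_grad_le.trans ?_
    rw [(hsrc.hasFDerivAt_pot w).fderiv]
    exact hpot hr0 hsrc w hw
  set b : ℝ := C * (2 * M) * r with hbdef
  have hb0 : 0 ≤ b := by positivity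
  have hF : DifferentiableOn ℂ (cd h) (ball z r) := fun w hw =>
    (HarmonicAt.differentiableAt_complex_partial (hh w hw)).differentiableWithinAt
  have hs0 : 0 < r / 2 := by positivity
  have hsr : r / 2 < r := by linarith
  have harea := area_le hs0 hsr hF
  have hEn0 := En_nonneg G z d
  have hGi : Integrable (fun w => ‖G w‖ ^ 2) := N.G_memLp.norm.integrable_sq
  have hle : ∫ w in ball z (r / 2), ‖cd h w‖ ^ 2 ≤
      2 * En G z d + 2 * b ^ 2 * (π * (r / 2) ^ 2) := by
    have hv : volume.real (ball z (r / 2)) = π * (r / 2) ^ 2 := by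
      rw [Measure.real, Complex.volume_ball, ENNReal.toReal_mul, ENNReal.toReal_pow,
        ENNReal.toReal_ofReal hs0.le]
      simp
      ring
    have i1 : IntegrableOn (fun w => 2 * ‖G w‖ ^ 2) (ball z (r / 2)) :=
      (hGi.const_mul 2).integrableOn
    have i2 : IntegrableOn (fun _ : ℂ => 2 * b ^ 2) (ball z (r / 2)) :=
      integrableOn_const measure_ball_lt_top.ne
    have i3 : IntegrableOn (fun w => ‖cd h w‖ ^ 2) (ball z (r / 2)) :=
      (((hF.continuousOn.norm.pow 2).mono (closedBall_subset_ball hsr)).integrableOn_compact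
        (isCompact_closedBall z _)).mono_set ball_subset_closedBall
    calc ∫ w in ball z (r / 2), ‖cd h w‖ ^ 2
        ≤ ∫ w in ball z (r / 2), (2 * ‖G w‖ ^ 2 + 2 * b ^ 2) := by
          refine setIntegral_mono_on i3 (i1.add i2) measurableSet_ball fun w hw => ?_
          have hw' : w ∈ ball z r := ball_subset_ball hsr.le hw
          have h1 : ‖cd h w‖ ≤ ‖G w‖ + b := by
            rw [norm_cd]
            have e : grad h w = G w - grad (pot f) w := by rw [hgrad w hw']; ring
            rw [e]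
            exact (norm_sub_le _ _).trans (by linarith [hpg w hw'])
          have h2 : ‖cd h w‖ ^ 2 ≤ (‖G w‖ + b) ^ 2 := pow_le_pow_left₀ (norm_nonneg _) h1 2
          nlinarith [sq_nonneg (‖G w‖ - b)]
      _ = 2 * (∫ w in ball z (r / 2), ‖G w‖ ^ 2) + 2 * b ^ 2 * (π * (r / 2) ^ 2) := by
          rw [integral_add i1 i2, integral_const_mul, setIntegral_const, hv, smul_eq_mul]
          ring
      _ ≤ _ := by
          have : ∫ w in ball z (r / 2), ‖G w‖ ^ 2 ≤ En G z d := by
            unfold En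
            exact setIntegral_mono_set hGi.integrableOn (Eventually.of_forall fun _ => by positivity)
              (LE.le.eventuallyLE (ball_subset_ball (by linarith)))
          linarith
  set a : ℝ := √(En G z d) with ha
  have ha0 : 0 ≤ a := Real.sqrt_nonneg _
  have hasq : a ^ 2 = En G z d := Real.sq_sqrt hEn0
  have hFz : ‖cd h z‖ ≤ 2 * (a / r) + 2 * b := by
    have h1 : π * (r / 2) ^ 2 * ‖cd h z‖ ^ 2 ≤ 2 * a ^ 2 + 2 * b ^ 2 * (π * (r / 2) ^ 2) := by
      rw [hasq]; exact harea.trans hle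
    have h2 : ‖cd h z‖ ^ 2 ≤ (2 * (a / r) + 2 * b) ^ 2 := by
      have hp : 0 < π * (r / 2) ^ 2 := by positivity
      have h3 : ‖cd h z‖ ^ 2 ≤ 2 * a ^ 2 / (π * (r / 2) ^ 2) + 2 * b ^ 2 := by
        rw [← sub_nonneg] at h1 ⊢
        have e : 2 * a ^ 2 / (π * (r / 2) ^ 2) + 2 * b ^ 2 - ‖cd h z‖ ^ 2 =
            (2 * a ^ 2 + 2 * b ^ 2 * (π * (r / 2) ^ 2) - π * (r / 2) ^ 2 * ‖cd h z‖ ^ 2) /
              (π * (r / 2) ^ 2) := by
          field_simp
        rw [e]
        positivity
      have h4 : 2 * a ^ 2 / (π * (r / 2) ^ 2) ≤ 4 * (a / r) ^ 2 := by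
        have e : 2 * a ^ 2 / (π * (r / 2) ^ 2) = 8 / π * (a / r) ^ 2 := by
          field_simp
          ring
        rw [e]
        have : 8 / π ≤ 4 := by
          rw [div_le_iff₀ hpi]
          linarith [Real.pi_gt_three]
        gcongr
      have h5 : 0 ≤ a / r * b := by positivity
      nlinarith [sq_nonneg b]
    exact (pow_le_pow_iff_left₀ (norm_nonneg _) (by positivity) two_ne_zero).1 h2
  have hGz : ‖G z‖ ≤ ‖cd h z‖ + b := by
    rw [norm_cd, hgrad z (mem_ball_self hr0)]
    exact (norm_add_le _ _).trans (by linarith [hpg z (mem_ball_self hr0)])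
  have e1 : a / r = 2 * (d⁻¹ * a) := by rw [hr]; field_simp
  have e2 : b = C * (M * d) := by rw [hbdef, hr]; ring
  have h7 : 0 ≤ d⁻¹ * a := by positivity
  have h8 : 0 ≤ M * d := by positivity
  calc ‖G z‖ ≤ 2 * (a / r) + 2 * b + b := by linarith
    _ = 4 * (d⁻¹ * a) + 3 * C * (M * d) := by rw [e1, e2]; ring
    _ ≤ (4 + 3 * C) * (d⁻¹ * a + M * d) := by nlinarith

end Vale.Agent.P128.H452
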